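import Vale.Agent.P281.H713.TZ.Bd
import Vale.Agent.P281.H383.U.Mul

/-! P281, project T-U, block U3 (helper383): `bd_G` for tame slices (adapted from
`H64/Gen/Bd.lean`). -/

open scoped Manifold ContDiff Topology
open Set Filter Metric Vale.Agent.P281 Vale.Agent.P272.K
open Vale.Agent.P281.MF Vale.Agent.P281.ISO Vale.Agent.P281.ELL Vale.Agent.P281.H713
open Vale.Agent.P281.H713.TZ Vale.Agent.P281.H64.TU

set_option linter.all false

noncomputable section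

namespace Vale.Agent.P281.H383.TGB

section

variable {n p : ℕ} {Z Y : Type} [TopologicalSpace Z] [ChartedSpace (Cm n) Z]
  [IsManifold 𝓘(ℂ, Cm n) ω Z] [TopologicalSpace Y] [ChartedSpace (Cm p) Y]
  [IsManifold 𝓘(ℂ, Cm p) ω Y]
variable {E₀ : Type} [NormedAddCommGroup E₀] [NormedSpace ℂ E₀] [FiniteDimensional ℂ E₀]

/-- **relative forms times pull-backs are bounded at the generic points** -/
theorem bd_TB {𝒯 : Tame E₀ Z} (hsl : SlicePart)
    (hlin : LinPart) {f : Z → Y} (hf : ∀ x, HolM (Cm n) (Cm p) f x)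
    {S : Set Y} (hsub : ∀ x, f x ∉ S → Function.Surjective (dM (Cm n) (Cm p) f x))
    (e₀ : Cm n ≃L[ℂ] (Cm p × E₀)) {N : ℕ} (hN : 0 < N) {𝒜 : Set (Set Z)} {Θ : Z → ℂ}
    (hbd : ∀ r K : ℝ, 0 < r → 0 < K → ∃ C : ℝ, ∀ (v₀ : E₀) (Q : E₀ → Z),
      (∀ v ∈ ball v₀ r, ContMDiffAt 𝓘(ℂ, E₀) 𝓘(ℂ, Cm n) ω Q v) → InjOn Q (ball v₀ r) →
      (∀ v ∈ ball v₀ r, f (Q v) = f (Q v₀)) → f (Q v₀) ∉ S →
      (∀ v ∈ ball v₀ r, ∀ D ∈ 𝒜, Q v ∉ D) → 𝒯 K Q v₀ r → ∀ P : Cm n →L[ℂ] E₀,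
      P.comp (mfderiv 𝓘(ℂ, E₀) 𝓘(ℂ, Cm n) Q v₀ : E₀ →L[ℂ] Cm n) =
        ContinuousLinearMap.id ℂ E₀ →
      ‖Θ (Q v₀)‖ ≤ C * ‖JP e₀ (dM (Cm n) (Cm p) f (Q v₀)) P ^ N‖)
    {z₀ y : Z} (h𝒯 : ∀ P : Cm n →L[ℂ] E₀, ∃ N ∈ 𝓝 y, ∃ K : ℝ, 0 < K ∧
      ∀ (Q : E₀ → Z) (v₀ : E₀) (r : ℝ), 0 < r → (∀ v ∈ ball v₀ r,
        ContMDiffAt 𝓘(ℂ, E₀) 𝓘(ℂ, Cm n) ω Q v ∧ Q v ∈ N ∧ P (chartAt (Cm n) z₀ (Q v)) = v) →
        𝒯 K Q v₀ r)
    (hy : y ∈ (chartAt (Cm n) z₀).source) {t : Y → ℂ} {PX : Z → ℂ}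
    {a : (Fin N → Fin p → Fin n) → Z → ℂ} (ha : ∀ I, HolV (Cm n) (a I) y)
    (hev : ∀ᶠ z in 𝓝 y, f z ∉ S → ∀ I,
      t (f z) * TL.minors (n := n) (p := p) N (id : Z → Z) f z₀ z I * PX z = a I z)
    {e : Z → ℂ} (he : HolV (Cm n) e y)
    (heS : ∀ᶠ z in 𝓝 y, e z = 0 → f z ∈ S)
    (hdn : ∀ᶠ z in 𝓝 y, ∃ᶠ w in 𝓝 z, f w ∉ S)
    (hgen : ∀ J : Fin p → Fin n, (∀ᶠ z in 𝓝 y, a (fun _ => J) z = 0) ∨
      ∃ (k : ℕ) (u : Z → ℂ), HolV (Cm n) u y ∧ u y ≠ 0 ∧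
        ∀ᶠ z in 𝓝 y, a (fun _ => J) z = e z ^ k * u z)
    (hav : ∀ᶠ z in 𝓝 y, f z ∉ S → ∀ D ∈ 𝒜, z ∉ D) :
    ∃ C : ℝ, ∀ᶠ z in 𝓝 y, f z ∉ S →
      ‖t (f z) * Θ z * PX z‖ ≤ C * ‖jac (Cm n) (chartAt (Cm n) z₀ : Z → Cm n) z ^ N‖ := by
  classical
  set φ := chartAt (Cm n) z₀ with hφ
  set ψ := chartAt (Cm p) (f y) with hψ
  have hys : f y ∈ ψ.source := mem_chart_source (Cm p) (f y)
  have hmem : φ ∈ IsManifold.maximalAtlas 𝓘(ℂ, Cm n) ω Z := IsManifold.chart_mem_maximalAtlas _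
  set b : (Fin p → Fin n) → Z → ℂ := fun J => a (fun _ => J) with hb
  have hbev : ∀ᶠ z in 𝓝 y, f z ∉ S → ∀ J, t (f z) * mnr (dA (n := n) (p := p) f z₀ z) J ^ N * PX z = b J z := by
    filter_upwards [hev] with z hz hzS J
    have h1 := hz hzS (fun _ => J)
    rw [minors_eq, Finset.prod_const, Finset.card_univ, Fintype.card_fin] at h1
    exact h1
  by_cases hall : ∀ J, ∀ᶠ z in 𝓝 y, b J z = 0
  · -- the trivial case
    refine ⟨0, ?_⟩
    have h1 : ∀ᶠ z in 𝓝 y, ∀ J, b J z = 0 := Filter.eventually_all.2 hall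
    filter_upwards [h1, hbev, φ.open_source.mem_nhds hy] with z h1 h2 h3 hzS
    obtain ⟨J, hJ⟩ : ∃ J : Fin p → Fin n, mnr (dA (n := n) (p := p) f z₀ z) J ≠ 0 := by
      refine exists_mnr fun η => ?_
      obtain ⟨ξ, hξ⟩ := hsub z hzS η
      refine ⟨dV (Cm n) (φ : Z → Cm n) z ξ, ?_⟩
      have h4 := congrArg (fun T : Cm n →L[ℂ] Cm p => T ξ) (dA_comp (f := f) h3)
      simp only [ContinuousLinearMap.comp_apply] at h4
      rw [h4, hξ]
    have h4 := h2 hzS J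
    rw [h1 J] at h4
    have h5 : t (f z) * PX z = 0 := by
      have h6 : (t (f z) * PX z) * mnr (dA (n := n) (p := p) f z₀ z) J ^ N = 0 := by rw [← h4]; ring
      exact (mul_eq_zero.1 h6).resolve_right (pow_ne_zero _ hJ)
    have h6 : t (f z) * Θ z * PX z = 0 := by
      calc t (f z) * Θ z * PX z = (t (f z) * PX z) * Θ z := by ring
        _ = 0 := by rw [h5, zero_mul]
    rw [h6, norm_zero, zero_mul]
  -- the orders
  have hgen' : ∀ J, ∃ (k : ℕ) (u : Z → ℂ), ¬ (∀ᶠ z in 𝓝 y, b J z = 0) →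
      HolV (Cm n) u y ∧ u y ≠ 0 ∧ ∀ᶠ z in 𝓝 y, b J z = e z ^ k * u z := by
    intro J
    rcases hgen J with h | ⟨k, u, h⟩
    · exact ⟨0, 0, fun h' => absurd h h'⟩
    · exact ⟨k, u, fun _ => h⟩
  choose k u hku using hgen'
  obtain ⟨J₀, hJ₀⟩ : ∃ J, ¬ ∀ᶠ z in 𝓝 y, b J z = 0 := by
    by_contra hcon
    push Not at hcon
    exact hall fun J => by
      have := hcon J
      exact this
  obtain ⟨J, hJ, hJmin⟩ : ∃ J, (¬ ∀ᶠ z in 𝓝 y, b J z = 0) ∧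
      ∀ J', (¬ ∀ᶠ z in 𝓝 y, b J' z = 0) → k J ≤ k J' := by
    obtain ⟨J, hJm, hJ2⟩ := (Finset.univ.filter fun J => ¬ ∀ᶠ z in 𝓝 y, b J z = 0).exists_min_image
      k ⟨J₀, Finset.mem_filter.2 ⟨Finset.mem_univ _, hJ₀⟩⟩
    exact ⟨J, (Finset.mem_filter.1 hJm).2, fun J' h =>
      hJ2 J' (Finset.mem_filter.2 ⟨Finset.mem_univ _, h⟩)⟩
  obtain ⟨huJ, huJ0, hbJ⟩ := hku J hJ
  have hfc : ContinuousAt f y := (hf y).continuousAt
  have hfs : ∀ᶠ z in 𝓝 y, f z ∈ ψ.source := hfc.eventually (ψ.open_source.mem_nhds hys)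
  -- `mnr J` does not vanish off `S`
  have hmJ : ∀ᶠ z in 𝓝 y, f z ∉ S → mnr (dA (n := n) (p := p) f z₀ z) J ≠ 0 := by
    filter_upwards [hbev, hbJ, huJ.continuousAt.eventually_ne huJ0, heS] with z h1 h2 h3 h4 hzS h0
    have h5 := h1 hzS J
    rw [h0, zero_pow hN.ne', mul_zero, zero_mul, h2] at h5
    exact mul_ne_zero (pow_ne_zero _ fun h => hzS (h4 h)) h3 h5.symm
  have hfr : ∃ᶠ z in 𝓝 y, f z ∉ S := hdn.self_of_nhds
  have hJinj : Function.Injective J := by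
    obtain ⟨z, hz1, hz2⟩ := (hfr.and_eventually hmJ).exists
    exact mnr_not_inj _ (hz2 hz1)
  -- the chart representation
  set c₀ : Cm n := φ y with hc₀
  have hsc : φ.symm c₀ = y := φ.left_inv hy
  have hφs : ContinuousAt φ.symm c₀ := φ.continuousAt_symm (φ.map_source hy)
  have hφst : Tendsto φ.symm (𝓝 c₀) (𝓝 y) := by
    have := hφs.tendsto
    rwa [hsc] at this
  have hψf : ∀ z, f z ∈ ψ.source → HolV (Cm n) (fun z => ψ (f z)) z := fun z hz =>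
    HolV.comp (h := (ψ : Y → Cm p)) (HolV.chart hz) (hf z)
  set Fh : Cm n → Cm p := (fun z => ψ (f z)) ∘ φ.symm with hFh
  have hF : ContDiffAt ℂ ω Fh c₀ := (hψf y hys).rep hy
  have hFd : ContDiffAt ℂ ω (fderiv ℂ Fh) c₀ := hF.fderiv_right (by simp)
  have htgt : ∀ᶠ c in 𝓝 c₀, c ∈ φ.target := φ.open_target.mem_nhds (φ.map_source hy)
  -- `f ∉ S` is dense near `c₀`
  have hdc : ∀ᶠ c in 𝓝 c₀, ∃ᶠ c' in 𝓝 c, f (φ.symm c') ∉ S := by
    filter_upwards [hφst.eventually hdn, htgt] with c h1 h2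
    have h3 : φ.symm c ∈ φ.source := φ.map_target h2
    have h4 := h1.and_eventually (φ.open_source.mem_nhds h3)
    have h5 : Tendsto φ (𝓝 (φ.symm c)) (𝓝 c) := by
      have := (φ.continuousAt h3).tendsto
      rwa [φ.right_inv h2] at this
    refine h5.frequently (h4.mono ?_)
    rintro z ⟨h6, h7⟩
    show f (φ.symm (φ z)) ∉ S
    rwa [φ.left_inv h7]
  set μ : Cm n → ℂ := fun c => mnr (fderiv ℂ Fh c) J with hμ
  have hμa : AnalyticAt ℂ μ c₀ :=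
    ((mnr_cont J).contDiffAt.comp c₀ hFd : ContDiffAt ℂ ω μ c₀).analyticAt
  -- the minors in the charts
  have hdAF : ∀ᶠ c in 𝓝 c₀, ∀ κ, mnr (fderiv ℂ Fh c) κ =
      (dV (Cm p) (ψ : Y → Cm p) (f (φ.symm c))).det * mnr (dA (n := n) (p := p) f z₀ (φ.symm c)) κ := by
    filter_upwards [htgt, hφst.eventually hfs] with c h1 h2 κ
    have h3 := fderiv_dA hf (z₀ := z₀) (z := φ.symm c) (y₀ := f y) (φ.map_target h1) h2
    rw [φ.right_inv h1] at h3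
    rw [show fderiv ℂ Fh c = _ from h3, mnr_comp]
  have hdet0 : ∀ᶠ c in 𝓝 c₀, (dV (Cm p) (ψ : Y → Cm p) (f (φ.symm c))).det ≠ 0 := by
    filter_upwards [hφst.eventually hfs] with c h2
    exact jac_chart_ne_zero h2
  have hrat : ∀ᶠ c in 𝓝 c₀, ∀ κ, mnr (fderiv ℂ Fh c) κ / mnr (fderiv ℂ Fh c) J =
      mnr (dA (n := n) (p := p) f z₀ (φ.symm c)) κ / mnr (dA (n := n) (p := p) f z₀ (φ.symm c)) J := by
    filter_upwards [hdAF, hdet0] with c h1 h2 κ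
    rw [h1, h1, mul_div_mul_left _ _ h2]
  have hmJ' : ∀ᶠ c in 𝓝 c₀, f (φ.symm c) ∉ S → μ c ≠ 0 := by
    filter_upwards [hdAF, hdet0, hφst.eventually hmJ] with c h1 h2 h3 h5
    show mnr (fderiv ℂ Fh c) J ≠ 0
    rw [h1]
    exact mul_ne_zero h2 (h3 h5)
  have hμd : ∀ᶠ c in 𝓝 c₀, ∃ᶠ c' in 𝓝 c, μ c' ≠ 0 := by
    filter_upwards [hdc, hmJ'.eventually_nhds] with c h1 h2
    exact (h1.and_eventually h2).mono fun c' h => h.2 h.1
  have hμne : ¬ ∀ᶠ c in 𝓝 c₀, μ c = 0 := fun h => hμd.self_of_nhds (by simpa using h)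
  -- the ratios are bounded
  have hbdd : ∀ κ, ∃ C : ℝ, ∀ᶠ c in 𝓝 c₀, f (φ.symm c) ∉ S →
      ‖mnr (fderiv ℂ Fh c) κ / mnr (fderiv ℂ Fh c) J‖ ≤ C := by
    intro κ
    have hq : ∃ C : ℝ, ∀ᶠ z in 𝓝 y, f z ∉ S → ‖b κ z / b J z‖ ≤ C := by
      by_cases hκ : ∀ᶠ z in 𝓝 y, b κ z = 0
      · refine ⟨0, ?_⟩
        filter_upwards [hκ] with z hz _
        rw [hz, zero_div, norm_zero]
      · obtain ⟨huκ, huκ0, hbκ⟩ := hku κ hκ
        have hle := hJmin κ hκ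
        have hcont : ContinuousAt (fun z => e z ^ (k κ - k J) * u κ z / u J z) y :=
          ((he.continuousAt.pow _).mul huκ.continuousAt).div huJ.continuousAt huJ0
        refine ⟨‖e y ^ (k κ - k J) * u κ y / u J y‖ + 1, ?_⟩
        filter_upwards [hbκ, hbJ, hcont.norm.eventually_lt_const (lt_add_one _), heS,
          huJ.continuousAt.eventually_ne huJ0] with z h1 h2 h3 h4 h5 hzS
        have he0 : e z ≠ 0 := fun h => hzS (h4 h)
        have h6 : b κ z / b J z = e z ^ (k κ - k J) * u κ z / u J z := by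
          rw [h1, h2, div_eq_div_iff (mul_ne_zero (pow_ne_zero _ he0) h5) h5]
          have h7 : e z ^ k κ = e z ^ (k κ - k J) * e z ^ k J := by
            rw [← pow_add, Nat.sub_add_cancel hle]
          rw [h7]
          ring
        rw [h6]
        exact h3.le
    obtain ⟨C, hC⟩ := hq
    refine ⟨max 1 C, ?_⟩
    filter_upwards [hrat, hφst.eventually hC, hφst.eventually hbev, hφst.eventually heS,
      hφst.eventually hmJ, hφst.eventually hbJ,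
      hφst.eventually (huJ.continuousAt.eventually_ne huJ0)] with c h1 h2 h3 h4 h5 h6 h7 hzS
    have hc : e (φ.symm c) ≠ 0 := fun h => hzS (h4 h)
    rw [h1 κ]
    set A := dA (n := n) (p := p) f z₀ (φ.symm c) with hA
    have h8 := h3 hzS κ
    have h9 := h3 hzS J
    have h10 : b J (φ.symm c) ≠ 0 := by
      rw [h6]
      exact mul_ne_zero (pow_ne_zero _ hc) h7
    have h11 : b κ (φ.symm c) / b J (φ.symm c) = (mnr A κ / mnr A J) ^ N := by
      rw [div_pow, div_eq_div_iff h10 (pow_ne_zero _ (h5 hzS)), ← h8, ← h9]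
      ring
    have h12 := h2 hzS
    rw [h11, norm_pow] at h12
    by_contra hcon
    push Not at hcon
    have h13 : 1 ≤ ‖mnr A κ / mnr A J‖ := (le_max_left _ _).trans hcon.le
    have h14 := le_self_pow₀ h13 hN.ne'
    exact absurd (h14.trans h12) (not_le.2 ((le_max_right _ _).trans_lt hcon))
  have hFev : ∀ᶠ c in 𝓝 c₀, ContDiffAt ℂ ω (fderiv ℂ Fh) c := hFd.eventually (by simp)
  have hmd : ∀ κ, ∀ᶠ c in 𝓝 c₀, DifferentiableAt ℂ (fun c => mnr (fderiv ℂ Fh c) κ) c := by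
    intro κ
    filter_upwards [hFev] with c h2
    have h4 : DifferentiableAt ℂ (fderiv ℂ Fh) c := h2.differentiableAt (by simp)
    exact DifferentiableAt.comp (g := fun A : Cm n →L[ℂ] Cm p => mnr A κ) c
      (((mnr_cont κ).contDiffAt).differentiableAt (by simp)) h4
  have hdiv : ∀ κ, ∀ᶠ c in 𝓝 c₀, μ c ≠ 0 →
      DifferentiableAt ℂ (fun c => mnr (fderiv ℂ Fh c) κ / mnr (fderiv ℂ Fh c) J) c := by
    intro κ
    filter_upwards [hmd κ, hmd J] with c h1 h2 h3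
    simp only [div_eq_mul_inv]
    exact h1.mul (h2.inv h3)
  have hHex : ∀ κ, ∃ H : Cm n → ℂ, AnalyticAt ℂ H c₀ ∧ ∀ᶠ c in 𝓝 c₀, μ c ≠ 0 →
      mnr (fderiv ℂ Fh c) κ / mnr (fderiv ℂ Fh c) J = H c := by
    intro κ
    obtain ⟨C, hC⟩ := hbdd κ
    have hC' : ∀ᶠ c in 𝓝 c₀, μ c ≠ 0 →
        ‖mnr (fderiv ℂ Fh c) κ / mnr (fderiv ℂ Fh c) J‖ ≤ C := by
      filter_upwards [hC.eventually_nhds, hdc, hdiv κ] with c h1 h2 h3 h4
      by_contra hcon
      push Not at hcon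
      have h5 := (h3 h4).continuousAt.norm.eventually_const_lt hcon
      obtain ⟨c', h6, h7, h8⟩ := (h2.and_eventually (h1.and h5)).exists
      exact absurd (h7 h6) (not_le.2 h8)
    refine extend_off hμa hμne (hdiv κ) ?_
    filter_upwards [hC'.eventually_nhds] with c hc hc0
    exact subset_closure ⟨hc0, C, hc⟩
  choose H hH hHe using hHex
  -- the distribution
  obtain ⟨hlin1, hlin2⟩ := hlin n p E₀ e₀
  obtain ⟨P, s, hPs, hPJ, hPA⟩ := hlin2 J hJinj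
  set Mb : Fin p → Fin n → (E₀ →L[ℂ] Cm n) := fun b k =>
    ((ContinuousLinearMap.proj k : Cm n →L[ℂ] ℂ).comp s).smulRight (Pi.single (J b) 1) with hMb
  set L : Cm n → E₀ →L[ℂ] Cm n := fun c => s - ∑ b, ∑ k, H (Function.update J b k) c • Mb b k
    with hL
  have hLa : AnalyticAt ℂ L c₀ := by
    refine analyticAt_const.sub ?_
    refine Finset.analyticAt_fun_sum _ fun b _ => ?_
    refine Finset.analyticAt_fun_sum _ fun k _ => ?_
    exact (hH _).smul analyticAt_const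
  have hLv : ∀ c v, L c v = s v - ∑ b, (∑ k, s v k * H (Function.update J b k) c) •
      (Pi.single (J b) 1 : Cm n) := by
    intro c v
    simp only [hL, hMb, sub_apply, sum_apply, smul_apply, ContinuousLinearMap.smulRight_apply,
      ContinuousLinearMap.comp_apply, ContinuousLinearMap.proj_apply]
    congr 1
    refine Finset.sum_congr rfl fun b _ => ?_
    rw [Finset.sum_smul]
    refine Finset.sum_congr rfl fun k _ => ?_
    rw [smul_smul, mul_comm]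
  have hPL : ∀ c, P.comp (L c) = ContinuousLinearMap.id ℂ E₀ := by
    intro c
    refine ContinuousLinearMap.ext fun v => ?_
    rw [ContinuousLinearMap.comp_apply, hLv, map_sub, map_sum, hPs]
    simp only [map_smul, hPJ, smul_zero, Finset.sum_const_zero, sub_zero]
    rfl
  have hHall : ∀ᶠ c in 𝓝 c₀, ∀ κ, μ c ≠ 0 →
      mnr (fderiv ℂ Fh c) κ / mnr (fderiv ℂ Fh c) J = H κ c := Filter.eventually_all.2 hHe
  have hAL : ∀ᶠ c in 𝓝 c₀, μ c ≠ 0 → (fderiv ℂ Fh c).comp (L c) = 0 := by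
    filter_upwards [hHall] with c h1 hc
    refine ContinuousLinearMap.ext fun v => ?_
    rw [ContinuousLinearMap.comp_apply, hLv, map_sub, map_sum, (hPA _ hc).2 v]
    simp only [map_smul]
    rw [sub_eq_zero.2]
    · rfl
    · refine Finset.sum_congr rfl fun b _ => ?_
      congr 1
      refine Finset.sum_congr rfl fun k _ => ?_
      rw [h1 _ hc]
  have hAL' : ∀ᶠ c in 𝓝 c₀, (fderiv ℂ Fh c).comp (L c) = 0 := by
    have hcL : ∀ᶠ c in 𝓝 c₀, ContinuousAt L c := by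
      filter_upwards [hLa.eventually_analyticAt] with c hc using hc.continuousAt
    have hcF : ∀ᶠ c in 𝓝 c₀, ContinuousAt (fderiv ℂ Fh) c := by
      filter_upwards [hFd.eventually (by simp)] with c hc using hc.continuousAt
    filter_upwards [hμd, hAL.eventually_nhds, hcL, hcF] with c h1 h2 h3 h4
    by_contra hcon
    have h5 : ContinuousAt (fun c => (fderiv ℂ Fh c).comp (L c)) c := h4.clm_comp h3
    obtain ⟨c', h6, h7, h8⟩ := (h1.and_eventually (h2.and (h5.eventually_ne hcon))).exists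
    exact h8 (h7 h6)
  -- the slices
  obtain ⟨WT, hWT, KT, hKT, hTame⟩ := h𝒯 P
  set W : Set (Cm n) := φ.target ∩ {c | (f (φ.symm c) ∈ ψ.source ∧ φ.symm c ∈ WT) ∧
    (f (φ.symm c) ∉ S → mnr (fderiv ℂ Fh c) J ≠ 0 ∧ ∀ D ∈ 𝒜, φ.symm c ∉ D)} with hWd
  have hW : W ∈ 𝓝 c₀ := by
    refine Filter.inter_mem htgt ?_
    filter_upwards [hφst.eventually hfs, hmJ', hφst.eventually hav,
      hφst.eventually (show ∀ᶠ z in 𝓝 y, z ∈ WT from hWT)] with
      c h1 h2 h4 h6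
    exact ⟨⟨h1, h6⟩, fun h5 => ⟨h2 h5, h4 h5⟩⟩
  obtain ⟨r, hr, hslc⟩ := hsl (Cm n) (Cm p) E₀ e₀ Fh c₀ hF.analyticAt L hLa P
    (Eventually.of_forall hPL) hAL' W hW
  obtain ⟨M, hM⟩ := hbd r KT hr hKT
  obtain ⟨cκ, hcκ⟩ := hlin1 P
  have haev : ∀ᶠ z in 𝓝 y, ∀ I, ‖a I z‖ < ‖a I y‖ + 1 := by
    refine Filter.eventually_all.2 fun I => ?_
    exact (ha I).continuousAt.norm.eventually_lt_const (lt_add_one _)
  refine ⟨|M| * ∑ I : Fin N → Fin p → Fin n, ‖∏ r, cκ (I r)‖ * (‖a I y‖ + 1), ?_⟩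
  filter_upwards [φ.open_source.mem_nhds hy, hfs, (φ.continuousAt hy).eventually hslc, hev,
    haev] with z hz hfz hzc hzev hza hzS
  set c : Cm n := φ z with hc
  have hscz : φ.symm c = z := φ.left_inv hz
  have hFc : Fh c = ψ (f z) := by
    show ψ (f (φ.symm c)) = ψ (f z)
    rw [hscz]
  have hfib : ∀ c' ∈ W, Fh c' = Fh c → f (φ.symm c') = f z := by
    intro c' hc' h
    rw [hFc] at h
    exact ψ.injOn hc'.2.1.1 hfz h
  obtain ⟨Q, hQ1, hQ⟩ := hzc (fun c' hc' h => (hPA _ (hc'.2.2 (by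
    rw [hfib c' hc' h]; exact hzS)).1).1)
  have hQtgt : ∀ v ∈ ball (P c) r, Q v ∈ φ.target := fun v hv => (hQ v hv).2.1.1
  have hQf : ∀ v ∈ ball (P c) r, f (φ.symm (Q v)) = f z := fun v hv =>
    hfib _ (hQ v hv).2.1 (hQ v hv).2.2.1
  set Qz : E₀ → Z := fun v => φ.symm (Q v) with hQz
  have hQz1 : Qz (P c) = z := by
    show φ.symm (Q (P c)) = z
    rw [hQ1, hscz]
  have hQhol : ∀ v ∈ ball (P c) r, ContMDiffAt 𝓘(ℂ, E₀) 𝓘(ℂ, Cm n) ω Qz v := by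
    intro v hv
    have g1 : ContMDiffAt 𝓘(ℂ, Cm n) 𝓘(ℂ, Cm n) ω φ.symm (Q v) :=
      contMDiffAt_symm_of_mem_maximalAtlas hmem (hQtgt v hv)
    exact ContMDiffAt.comp (g := φ.symm) (f := Q) v g1 (hQ v hv).1.contMDiffAt
  have hφR : ∀ v ∈ ball (P c) r, φ (Qz v) = Q v := fun v hv => φ.right_inv (hQtgt v hv)
  have hQinj : InjOn Qz (ball (P c) r) := by
    intro v hv v' hv' hvv
    have g2 : Q v = Q v' := by
      rw [← hφR v hv, ← hφR v' hv']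
      exact congrArg φ hvv
    rw [← (hQ v hv).2.2.2, ← (hQ v' hv').2.2.2, g2]
  have hv₁ : P c ∈ ball (P c) r := mem_ball_self hr
  -- the left inverse of the derivative of the slice
  set P' : Cm n →L[ℂ] E₀ := P.comp (dV (Cm n) (φ : Z → Cm n) z) with hP'
  obtain ⟨D, hD⟩ : ∃ D : E₀ →L[ℂ] Cm n, D = mfderiv 𝓘(ℂ, E₀) 𝓘(ℂ, Cm n) Qz (P c) := ⟨_, rfl⟩
  have hdQ : P'.comp D = ContinuousLinearMap.id ℂ E₀ := by
    have g1 : HolV (Cm n) (φ : Z → Cm n) (Qz (P c)) := by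
      rw [hQz1]
      exact HolV.chart hz
    have g2 : dV E₀ (fun v => φ (Qz v)) (P c) =
        (dV (Cm n) (φ : Z → Cm n) (Qz (P c))).comp D := by
      have g6 := mfderiv_comp (P c) g1.mdiff ((hQhol _ hv₁).mdifferentiableAt (by simp))
      subst hD
      exact g6
    have g3 : (fun v => P (φ (Qz v))) =ᶠ[𝓝 (P c)] fun v => v := by
      filter_upwards [isOpen_ball.mem_nhds hv₁] with v hv
      rw [hφR v hv, (hQ v hv).2.2.2]
    have g4 : dV E₀ (fun v => P (φ (Qz v))) (P c) = P.comp (dV E₀ (fun v => φ (Qz v)) (P c)) := by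
      have g5 : HolV E₀ (fun v => φ (Qz v)) (P c) :=
        HolV.comp (h := (φ : Z → Cm n)) g1 (hQhol _ hv₁)
      have g6 := dV_comp_contDiff (G := (P : Cm n → E₀)) (v := fun v => φ (Qz v)) (x := P c)
        P.contDiff.contDiffAt g5
      rw [P.fderiv] at g6
      exact g6
    have g5 : dV E₀ (fun v => P (φ (Qz v))) (P c) = ContinuousLinearMap.id ℂ E₀ := by
      unfold dV
      rw [g3.mfderiv_eq, mfderiv_eq_fderiv]
      exact fderiv_id'
    rw [hP', ContinuousLinearMap.comp_assoc, ← g5, g4, g2, hQz1]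
  have hQT : 𝒯 KT Qz (P c) r := by
    refine hTame Qz (P c) r hr fun v hv => ⟨hQhol v hv, (hQ v hv).2.1.2.1.2, ?_⟩
    show P (φ (Qz v)) = v
    rw [hφR v hv, (hQ v hv).2.2.2]
  have key := hM (P c) Qz hQhol hQinj (fun v hv => by
      rw [hQz1]
      exact hQf v hv) (by rw [hQz1]; exact hzS) (fun v hv D hD hQD => by
      refine ((hQ v hv).2.1.2.2 ?_).2 D hD hQD
      rw [hQf v hv]
      exact hzS) hQT P' (by subst hD; exact hdQ)
  rw [hQz1] at key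
  have k1 : JP e₀ (dM (Cm n) (Cm p) f z) P' =
      JP e₀ (dA (n := n) (p := p) f z₀ z) P * jac (Cm n) (φ : Z → Cm n) z := by
    have g1 := JP_comp e₀ (dA (n := n) (p := p) f z₀ z) P (dV (Cm n) (φ : Z → Cm n) z)
    rw [dA_comp hz] at g1
    exact g1
  have k2 : t (f z) * PX z * JP e₀ (dA (n := n) (p := p) f z₀ z) P ^ N =
      ∑ I : Fin N → Fin p → Fin n, (∏ r, cκ (I r)) * a I z := by
    rw [hcκ]
    have g1 : (∑ κ, cκ κ * mnr (dA (n := n) (p := p) f z₀ z) κ) ^ N =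
        ∑ I : Fin N → Fin p → Fin n, ∏ r, (cκ (I r) * mnr (dA (n := n) (p := p) f z₀ z) (I r)) := by
      have g2 := Finset.prod_univ_sum (fun _ : Fin N => (Finset.univ : Finset (Fin p → Fin n)))
        (fun _ κ => cκ κ * mnr (dA (n := n) (p := p) f z₀ z) κ)
      rw [Finset.prod_const, Finset.card_univ, Fintype.card_fin, Fintype.piFinset_univ] at g2
      exact g2
    rw [g1, Finset.mul_sum]
    refine Finset.sum_congr rfl fun I _ => ?_
    rw [← hzev hzS I, minors_eq, Finset.prod_mul_distrib]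
    ring
  have k3 : ‖t (f z) * PX z * JP e₀ (dA (n := n) (p := p) f z₀ z) P ^ N‖ ≤
      ∑ I : Fin N → Fin p → Fin n, ‖∏ r, cκ (I r)‖ * (‖a I y‖ + 1) := by
    rw [k2]
    refine (norm_sum_le _ _).trans (Finset.sum_le_sum fun I _ => ?_)
    rw [norm_mul]
    exact mul_le_mul_of_nonneg_left (hza I).le (norm_nonneg _)
  calc ‖t (f z) * Θ z * PX z‖ = ‖t (f z) * PX z‖ * ‖Θ z‖ := by
        rw [← norm_mul]; congr 1; ring
    _ ≤ ‖t (f z) * PX z‖ * (M * ‖JP e₀ (dM (Cm n) (Cm p) f z) P' ^ N‖) := by gcongr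
    _ ≤ ‖t (f z) * PX z‖ * (|M| * ‖JP e₀ (dM (Cm n) (Cm p) f z) P' ^ N‖) := by
        gcongr
        exact le_abs_self M
    _ = |M| * ‖t (f z) * PX z * JP e₀ (dA (n := n) (p := p) f z₀ z) P ^ N‖ *
          ‖jac (Cm n) (φ : Z → Cm n) z ^ N‖ := by
        have k4 : ‖(JP e₀ (dA (n := n) (p := p) f z₀ z) P * jac (Cm n) (φ : Z → Cm n) z) ^ N‖ =
            ‖JP e₀ (dA (n := n) (p := p) f z₀ z) P ^ N‖ * ‖jac (Cm n) (φ : Z → Cm n) z ^ N‖ := by
          rw [mul_pow, norm_mul]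
        have k5 : ‖t (f z) * PX z * JP e₀ (dA (n := n) (p := p) f z₀ z) P ^ N‖ =
            ‖t (f z) * PX z‖ * ‖JP e₀ (dA (n := n) (p := p) f z₀ z) P ^ N‖ := norm_mul _ _
        rw [k1, k4, k5]
        ring
    _ ≤ |M| * (∑ I : Fin N → Fin p → Fin n, ‖∏ r, cκ (I r)‖ * (‖a I y‖ + 1)) *
          ‖jac (Cm n) (φ : Z → Cm n) z ^ N‖ := by
        gcongr

end

end Vale.Agent.P281.H383.TGB
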