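import Vale.Agent.P281.H383.TGB.Core
import Vale.Agent.P281.H383.U.Main

/-! P281, project T-GB, block B3 (helper383): `LiftTBStmt`. -/

open scoped Manifold ContDiff Topology
open Set Filter Metric Vale.Agent.P281 Vale.Agent.P272.K
open Vale.Agent.P281.MF Vale.Agent.P281.ISO Vale.Agent.P281.ELL Vale.Agent.P281.H713
open Vale.Agent.P281.H713.TZ Vale.Agent.P281.H64.Gen Vale.Agent.P281.H64.TU
open Vale.Agent.P281.H969.TGB (TameOKB HypStmt LiftTBStmt)

noncomputable section

namespace Vale.Agent.P281.H383.TGB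

/-- **B3** -/
theorem liftTB (hyp : HypStmt) : LiftTBStmt := by
  intro n p X Y E₁ _ _ _ _ _ _ _ _ _ _ _ _ T f S e₀ Δ r j₂ B hB hT hf hS hsub hsnc hform h₂
  exact kodGE_UB hT hB.1 (fun g x hg h0 => hyp n X B g x hB hg h0) H413.TZ.genPart
    H342.TZ.slicePart H431.linPart H498.poleZPart U.isBigOpen_id hf hS hsub e₀
    hsnc hsnc (U.isRestriction_id Δ) hform h₂

end Vale.Agent.P281.H383.TGB
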